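import Vale.Agent.P318M.All

/-! Nonuniform sparsest cut is NP-hard to approximate within every constant factor. -/

open Vale.Agent.P325 Vale.Agent.P318M

theorem Vale.Agent.Results.P318.ManyOne.result : ∀ C : ℝ, ∃ f : List Bool → WL × WL,
    (∃ M : Turing.TM2ComputableInPolyTime id (fun I : WL × WL => bitsOf (natsW I.1 ++ natsW I.2)) f,
      ∀ j, Finite (M.tm.Γ j)) ∧
    ∀ x : List Bool, (∃ S, 0 < cut (f x).2 S) ∧
      ((∃ φ : CNF3, bitsOf (natsCNF φ) = x ∧ Sat φ) →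
        ∃ S, 0 < cut (f x).2 S ∧ cut (f x).1 S ≤ 3 * cut (f x).2 S) ∧
      (¬ (∃ φ : CNF3, bitsOf (natsCNF φ) = x ∧ Sat φ) →
        ∀ S, C * (3 * cut (f x).2 S : ℝ) ≤ cut (f x).1 S) :=
  main
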