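import Vale.Agent.P318.Exact
import Vale.Agent.P325.FromPCP
import Vale.Agent.P325.PCPMain
import Vale.Agent.P325.Marg
import Vale.Agent.P325.Pow
import Vale.Agent.P325.Comp

namespace Vale.Agent.Results.P318.Nonuniform

open Vale.Agent.P325 Vale.Agent.P318

/-- Sparsest cut with a demand graph is NP-hard to approximate within every constant factor,
under polynomial-time oracle reductions. -/
theorem result : ∀ C : ℝ, 1 ≤ C → (∃ A : Inst → List ℕ, IsApprox C A) ∧
    ∃ (p : Polynomial ℕ) (ask : List Bool × List (List ℕ) → Inst)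
      (out : List Bool × List (List ℕ) → Bool),
      (∃ M : Turing.TM2ComputableInPolyTime codeQ codeI ask, ∀ j, Finite (M.tm.Γ j)) ∧
      (∃ M : Turing.TM2ComputableInPolyTime codeQ (fun b => [b]) out, ∀ j, Finite (M.tm.Γ j)) ∧
      ∀ A : Inst → List ℕ, IsApprox C A → ∀ x : List Bool,
        (∀ n, (codeI (ask (x, answers A ask x n))).length ≤ p.eval x.length) ∧
        (out (x, answers A ask x (p.eval x.length)) = true ↔
          ∃ φ : CNF3, bitsOf (natsCNF φ) = x ∧ Sat φ) :=
  fun C hC => ⟨exists_approx C hC,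
    final_of (ug_of_pcp (pcp_of margThm powThm compThm)) C (le_trans zero_le_one hC)⟩

end Vale.Agent.Results.P318.Nonuniform
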